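import Vale.Agent.P141.PL.Defs

/-!
# P141, line (A): nested families with packing decay geometrically in the generation

* `lam_decay` : generic laminar form;
* `sq_decay` : dyadic squares `(k, a, b)` in the root `(n, M₁, M₃)`.
-/

namespace Vale.Agent.P141.H42.Pack1

open Finset
open Vale.Agent.P141.PL (iv ix mem_iv ix_ix ix_zero)

noncomputable section

open scoped Classical

section generic

variable {α : Type*} {R : α → α → Prop} {P : Finset α} {w : α → ℝ}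

/-- number of members of `P` above `q` -/
def Nn (R : α → α → Prop) (P : Finset α) (q : α) : ℕ := (P.filter fun p => R q p).card

theorem Nn_anti (htr : ∀ a b c, R a b → R b c → R a c) {p q : α} (h : R q p) :
    Nn R P p ≤ Nn R P q :=
  card_le_card fun x hx => by
    rw [mem_filter] at hx ⊢
    exact ⟨hx.1, htr _ _ _ h hx.2⟩

theorem Nn_pos (hrf : ∀ a, R a a) {q : α} (hq : q ∈ P) : 1 ≤ Nn R P q :=
  card_pos.mpr ⟨q, mem_filter.mpr ⟨hq, hrf q⟩⟩

theorem Nn_lt (hrf : ∀ a, R a a) (htr : ∀ a b c, R a b → R b c → R a c)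
    (has : ∀ a b, R a b → R b a → a = b) {p q : α} (hq : q ∈ P) (h : R q p) (hne : q ≠ p) :
    Nn R P p < Nn R P q := by
  refine card_lt_card ?_
  rw [ssubset_iff_of_subset]
  · refine ⟨q, mem_filter.mpr ⟨hq, hrf q⟩, fun h2 => hne ?_⟩
    exact has _ _ h (mem_filter.mp h2).2
  · intro x hx
    rw [mem_filter] at hx ⊢
    exact ⟨hx.1, htr _ _ _ h hx.2⟩

/-- every generation up to its own is met above `q` -/
theorem exists_gen (hrf : ∀ a, R a a) (htr : ∀ a b c, R a b → R b c → R a c)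
    (has : ∀ a b, R a b → R b a → a = b)
    (hch : ∀ q p p', R q p → R q p' → R p p' ∨ R p' p) {q : α} {i : ℕ} (hi : 1 ≤ i)
    (hiq : i ≤ Nn R P q) : ∃ p ∈ P, R q p ∧ Nn R P p = i := by
  have hinj : Set.InjOn (Nn R P) (P.filter fun p => R q p : Finset α) := by
    intro a ha b hb hab
    have ha' := mem_filter.mp (mem_coe.mp ha)
    have hb' := mem_filter.mp (mem_coe.mp hb)
    by_contra hne
    rcases hch q a b ha'.2 hb'.2 with h | h
    · exact absurd hab (Nn_lt hrf htr has ha'.1 h hne).ne'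
    · exact absurd hab (Nn_lt hrf htr has hb'.1 h fun h' => hne h'.symm).ne
  have hsub : (P.filter fun p => R q p).image (Nn R P) ⊆ Icc 1 (Nn R P q) := by
    intro x hx
    obtain ⟨p, hp, rfl⟩ := mem_image.mp hx
    have hp' := mem_filter.mp hp
    exact mem_Icc.mpr ⟨Nn_pos hrf hp'.1, Nn_anti htr hp'.2⟩
  have hcard : (Icc 1 (Nn R P q)).card ≤ ((P.filter fun p => R q p).image (Nn R P)).card := by
    rw [card_image_of_injOn hinj, Nat.card_Icc, Nat.add_sub_cancel]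
    exact le_rfl
  have heq := eq_of_subset_of_card_le hsub hcard
  have hmem : i ∈ (P.filter fun p => R q p).image (Nn R P) := by
    rw [heq]; exact mem_Icc.mpr ⟨hi, hiq⟩
  obtain ⟨p, hp, he⟩ := mem_image.mp hmem
  have hp' := mem_filter.mp hp
  exact ⟨p, hp'.1, hp'.2, he⟩

/-- mass of the generations `≥ i` -/
def Sg (R : α → α → Prop) (P : Finset α) (w : α → ℝ) (i : ℕ) : ℝ :=
  ∑ q ∈ P.filter (fun q => i ≤ Nn R P q), w q

theorem Sg_nonneg (hw : ∀ q ∈ P, 0 ≤ w q) (i : ℕ) : 0 ≤ Sg R P w i :=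
  sum_nonneg fun q hq => hw q (mem_filter.mp hq).1

theorem Sg_succ (i : ℕ) :
    Sg R P w i = Sg R P w (i + 1) + ∑ p ∈ P.filter (fun p => Nn R P p = i), w p := by
  unfold Sg
  rw [sum_filter, sum_filter, sum_filter, ← sum_add_distrib]
  refine sum_congr rfl fun q _ => ?_
  rcases lt_trichotomy i (Nn R P q) with h | h | h
  · rw [if_pos h.le, if_pos (Nat.succ_le_of_lt h), if_neg h.ne', add_zero]
  · rw [if_pos h.le, if_neg (by omega), if_pos h.symm, zero_add]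
  · rw [if_neg (by omega), if_neg (by omega), if_neg h.ne, add_zero]

theorem Sg_le (hrf : ∀ a, R a a) (htr : ∀ a b c, R a b → R b c → R a c)
    (has : ∀ a b, R a b → R b a → a = b)
    (hch : ∀ q p p', R q p → R q p' → R p p' ∨ R p' p) (hw : ∀ q ∈ P, 0 ≤ w q) {B : ℝ}
    (hpk : ∀ p ∈ P, ∑ q ∈ P.filter (fun q => R q p), w q ≤ B * w p) {i : ℕ} (hi : 1 ≤ i) :
    Sg R P w i ≤ B * ∑ p ∈ P.filter (fun p => Nn R P p = i), w p := by
  have h1 : Sg R P w i ≤ ∑ q ∈ P.filter (fun q => i ≤ Nn R P q),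
      ∑ p ∈ P.filter (fun p => Nn R P p = i), if R q p then w q else 0 := by
    refine sum_le_sum fun q hq => ?_
    have hq' := mem_filter.mp hq
    obtain ⟨p, hp, hqp, he⟩ := exists_gen hrf htr has hch hi hq'.2
    have h := single_le_sum (f := fun p => if R q p then w q else 0)
      (s := P.filter (fun p => Nn R P p = i)) (fun x _ => by
        show 0 ≤ if R q x then w q else 0
        split_ifs
        · exact hw q hq'.1
        · exact le_rfl) (mem_filter.mpr ⟨hp, he⟩)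
    simp only [if_pos hqp] at h
    exact h
  refine h1.trans ?_
  rw [sum_comm, mul_sum]
  refine sum_le_sum fun p hp => ?_
  have hp' := mem_filter.mp hp
  refine le_trans ?_ (hpk p hp'.1)
  rw [← sum_filter]
  refine sum_le_sum_of_subset_of_nonneg ?_ fun q hq _ => hw q (mem_filter.mp hq).1
  intro q hq
  rw [mem_filter, mem_filter] at hq
  exact mem_filter.mpr ⟨hq.1.1, hq.2⟩

/-- **Packing gives geometric decay in the generation.** -/
theorem lam_decay (hrf : ∀ a, R a a) (htr : ∀ a b c, R a b → R b c → R a c)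
    (has : ∀ a b, R a b → R b a → a = b)
    (hch : ∀ q p p', R q p → R q p' → R p p' ∨ R p' p) (hw : ∀ q ∈ P, 0 ≤ w q) {B : ℝ}
    (hB : 1 ≤ B) (hpk : ∀ p ∈ P, ∑ q ∈ P.filter (fun q => R q p), w q ≤ B * w p) (l : ℕ) :
    ∑ q ∈ P.filter (fun q => l < Nn R P q), w q ≤ (1 - 1 / B) ^ l * ∑ q ∈ P, w q := by
  have hB0 : 0 < B := by linarith
  have hr : 0 ≤ 1 - 1 / B := by
    rw [sub_nonneg, div_le_one hB0]; exact hB
  have step : ∀ i, 1 ≤ i → Sg R P w (i + 1) ≤ (1 - 1 / B) * Sg R P w i := by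
    intro i hi
    have h1 := Sg_le hrf htr has hch hw hpk hi
    have h2 := Sg_succ (R := R) (P := P) (w := w) i
    have h3 : Sg R P w i / B ≤ ∑ p ∈ P.filter (fun p => Nn R P p = i), w p := by
      rw [div_le_iff₀ hB0, mul_comm]
      exact h1
    have h4 : (1 - 1 / B) * Sg R P w i = Sg R P w i - Sg R P w i / B := by ring
    rw [h4]
    linarith
  have key : ∀ l : ℕ, Sg R P w (l + 1) ≤ (1 - 1 / B) ^ l * ∑ q ∈ P, w q := by
    intro l
    induction l with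
    | zero =>
      rw [pow_zero, one_mul]
      exact sum_le_sum_of_subset_of_nonneg (filter_subset _ _) fun q hq _ => hw q hq
    | succ l ih =>
      refine (step (l + 1) (by omega)).trans ?_
      rw [pow_succ', mul_assoc]
      exact mul_le_mul_of_nonneg_left ih hr
  exact key l

end generic

/-! ### Squares -/

/-- `q` is inside `p` -/
def In (q p : (_ : ℕ) × (ℤ × ℤ)) : Prop :=
  q.1 ≤ p.1 ∧ ix (p.1 - q.1) q.2.1 = p.2.1 ∧ ix (p.1 - q.1) q.2.2 = p.2.2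

theorem In_refl (a : (_ : ℕ) × (ℤ × ℤ)) : In a a := by
  refine ⟨le_rfl, ?_, ?_⟩ <;> rw [Nat.sub_self, ix_zero]

theorem In_trans (a b c : (_ : ℕ) × (ℤ × ℤ)) (h : In a b) (h' : In b c) : In a c := by
  obtain ⟨h1, h2, h3⟩ := h
  obtain ⟨h1', h2', h3'⟩ := h'
  refine ⟨h1.trans h1', ?_, ?_⟩
  · rw [← h2', ← h2, ix_ix]
    congr 1
    omega
  · rw [← h3', ← h3, ix_ix]
    congr 1
    omega

theorem In_anti (a b : (_ : ℕ) × (ℤ × ℤ)) (h : In a b) (h' : In b a) : a = b := by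
  obtain ⟨k, x, y⟩ := a
  obtain ⟨k', x', y'⟩ := b
  obtain ⟨h1, h2, h3⟩ := h
  obtain ⟨h1', -, -⟩ := h'
  have hk : k = k' := le_antisymm h1 h1'
  subst hk
  simp only [Nat.sub_self, ix_zero] at h2 h3
  rw [h2, h3]

theorem In_chain (q p p' : (_ : ℕ) × (ℤ × ℤ)) (h : In q p) (h' : In q p') :
    In p p' ∨ In p' p := by
  obtain ⟨h1, h2, h3⟩ := h
  obtain ⟨h1', h2', h3'⟩ := h'
  rcases le_total p.1 p'.1 with hk | hk
  · refine Or.inl ⟨hk, ?_, ?_⟩
    · rw [← h2, ← h2', ix_ix]; congr 1; omega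
    · rw [← h3, ← h3', ix_ix]; congr 1; omega
  · refine Or.inr ⟨hk, ?_, ?_⟩
    · rw [← h2, ← h2', ix_ix]; congr 1; omega
    · rw [← h3, ← h3', ix_ix]; congr 1; omega

/-- the marked squares of the root -/
def Pq (n : ℕ) (M₁ M₃ : ℤ) (aff : ℕ → ℤ → ℤ → Prop) : Finset ((_ : ℕ) × (ℤ × ℤ)) :=
  ((range (n + 1)).sigma fun k => iv (n - k) M₁ ×ˢ iv (n - k) M₃).filter
    fun q => aff q.1 q.2.1 q.2.2

theorem mem_Pq {n : ℕ} {M₁ M₃ : ℤ} {aff : ℕ → ℤ → ℤ → Prop} {q : (_ : ℕ) × (ℤ × ℤ)} :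
    q ∈ Pq n M₁ M₃ aff ↔ q.1 ≤ n ∧ ix (n - q.1) q.2.1 = M₁ ∧ ix (n - q.1) q.2.2 = M₃ ∧
      aff q.1 q.2.1 q.2.2 := by
  unfold Pq
  rw [mem_filter, mem_sigma, mem_product, mem_iv, mem_iv, mem_range]
  constructor
  · rintro ⟨⟨h1, h2, h3⟩, h4⟩
    exact ⟨by omega, h2, h3, h4⟩
  · rintro ⟨h1, h2, h3, h4⟩
    exact ⟨⟨by omega, h2, h3⟩, h4⟩

/-- number of marked squares containing `(k, a, b)`, itself included -/
def Nk (n : ℕ) (aff : ℕ → ℤ → ℤ → Prop) (k : ℕ) (a b : ℤ) : ℕ :=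
  ((Icc k n).filter fun j => aff j (ix (j - k) a) (ix (j - k) b)).card

theorem Nn_eq {n : ℕ} {M₁ M₃ : ℤ} {aff : ℕ → ℤ → ℤ → Prop} {q : (_ : ℕ) × (ℤ × ℤ)}
    (h1 : ix (n - q.1) q.2.1 = M₁) (h2 : ix (n - q.1) q.2.2 = M₃) :
    Nn In (Pq n M₁ M₃ aff) q = Nk n aff q.1 q.2.1 q.2.2 := by
  unfold Nn Nk
  refine card_bij (fun p _ => p.1) ?_ ?_ ?_
  · intro p hp
    obtain ⟨hp, hk, ha, hb⟩ := mem_filter.mp hp
    have hp' := mem_Pq.mp hp
    refine mem_filter.mpr ⟨mem_Icc.mpr ⟨hk, hp'.1⟩, ?_⟩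
    rw [ha, hb]
    exact hp'.2.2.2
  · intro p hp p' hp' he
    obtain ⟨-, hk, ha, hb⟩ := mem_filter.mp hp
    obtain ⟨-, hk', ha', hb'⟩ := mem_filter.mp hp'
    obtain ⟨k, x, y⟩ := p
    obtain ⟨k', x', y'⟩ := p'
    simp only at he ha hb ha' hb'
    subst he
    rw [← ha, ← hb, ← ha', ← hb']
  · intro j hj
    obtain ⟨hj, hA⟩ := mem_filter.mp hj
    obtain ⟨hkj, hjn⟩ := mem_Icc.mp hj
    refine ⟨⟨j, (ix (j - q.1) q.2.1, ix (j - q.1) q.2.2)⟩, ?_, rfl⟩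
    refine mem_filter.mpr ⟨mem_Pq.mpr ⟨hjn, ?_, ?_, hA⟩, hkj, rfl, rfl⟩
    · change ix (n - j) (ix (j - q.1) q.2.1) = M₁
      rw [ix_ix, ← h1]
      congr 1
      omega
    · change ix (n - j) (ix (j - q.1) q.2.2) = M₃
      rw [ix_ix, ← h2]
      congr 1
      omega

/-- **Squares: packing gives geometric decay in the generation.** -/
theorem sq_decay {n : ℕ} {M₁ M₃ : ℤ} {aff : ℕ → ℤ → ℤ → Prop} {B : ℝ} (hB : 1 ≤ B)
    (hpk : ∀ j ≤ n, ∀ a ∈ iv (n - j) M₁, ∀ b ∈ iv (n - j) M₃, aff j a b →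
      ∑ k ∈ range (j + 1), ∑ a' ∈ iv (j - k) a, ∑ b' ∈ iv (j - k) b,
        (if aff k a' b' then (4 : ℝ) ^ k else 0) ≤ B * 4 ^ j) (l : ℕ) :
    ∑ k ∈ range (n + 1), ∑ a ∈ iv (n - k) M₁, ∑ b ∈ iv (n - k) M₃,
        (if aff k a b ∧ l < Nk n aff k a b then (4 : ℝ) ^ k else 0)
      ≤ (1 - 1 / B) ^ l * ∑ k ∈ range (n + 1), ∑ a ∈ iv (n - k) M₁, ∑ b ∈ iv (n - k) M₃,
        (if aff k a b then (4 : ℝ) ^ k else 0) := by
  have key := lam_decay (R := In) (P := Pq n M₁ M₃ aff) (w := fun q => (4 : ℝ) ^ q.1)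
    In_refl In_trans In_anti In_chain (fun q _ => by positivity) hB (B := B) ?_ l
  · have e1 : ∑ q ∈ Pq n M₁ M₃ aff, (4 : ℝ) ^ q.1 = ∑ k ∈ range (n + 1), ∑ a ∈ iv (n - k) M₁,
        ∑ b ∈ iv (n - k) M₃, (if aff k a b then (4 : ℝ) ^ k else 0) := by
      unfold Pq
      rw [sum_filter, sum_sigma]
      refine sum_congr rfl fun k _ => ?_
      rw [sum_product]
    have e2 : ∑ q ∈ (Pq n M₁ M₃ aff).filter (fun q => l < Nn In (Pq n M₁ M₃ aff) q),
        (4 : ℝ) ^ q.1 = ∑ k ∈ range (n + 1), ∑ a ∈ iv (n - k) M₁,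
        ∑ b ∈ iv (n - k) M₃, (if aff k a b ∧ l < Nk n aff k a b then (4 : ℝ) ^ k else 0) := by
      have e3 : (Pq n M₁ M₃ aff).filter (fun q => l < Nn In (Pq n M₁ M₃ aff) q)
          = ((range (n + 1)).sigma fun k => iv (n - k) M₁ ×ˢ iv (n - k) M₃).filter
            fun q => aff q.1 q.2.1 q.2.2 ∧ l < Nk n aff q.1 q.2.1 q.2.2 := by
        ext q
        rw [mem_filter, mem_Pq, mem_filter, mem_sigma, mem_product, mem_iv, mem_iv, mem_range]
        constructor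
        · rintro ⟨⟨h1, h2, h3, h4⟩, h5⟩
          rw [Nn_eq h2 h3] at h5
          exact ⟨⟨by omega, h2, h3⟩, h4, h5⟩
        · rintro ⟨⟨h1, h2, h3⟩, h4, h5⟩
          refine ⟨⟨by omega, h2, h3, h4⟩, ?_⟩
          rw [Nn_eq h2 h3]
          exact h5
      rw [e3, sum_filter, sum_sigma]
      refine sum_congr rfl fun k _ => ?_
      rw [sum_product]
    rw [e1, e2] at key
    exact key
  · intro p hp
    have hp' := mem_Pq.mp hp
    refine le_trans ?_ (hpk p.1 hp'.1 p.2.1 (mem_iv.mpr hp'.2.1) p.2.2 (mem_iv.mpr hp'.2.2.1)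
      hp'.2.2.2)
    have e1 : ∑ k ∈ range (p.1 + 1), ∑ a' ∈ iv (p.1 - k) p.2.1, ∑ b' ∈ iv (p.1 - k) p.2.2,
        (if aff k a' b' then (4 : ℝ) ^ k else 0)
        = ∑ q ∈ ((range (p.1 + 1)).sigma fun k => iv (p.1 - k) p.2.1 ×ˢ iv (p.1 - k) p.2.2).filter
          (fun q => aff q.1 q.2.1 q.2.2), (4 : ℝ) ^ q.1 := by
      rw [sum_filter, sum_sigma]
      refine sum_congr rfl fun k _ => ?_
      rw [sum_product]
    rw [e1]
    refine sum_le_sum_of_subset_of_nonneg ?_ fun q _ _ => by positivity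
    intro q hq
    obtain ⟨hq, hk, ha, hb⟩ := mem_filter.mp hq
    have hq' := mem_Pq.mp hq
    refine mem_filter.mpr ⟨mem_sigma.mpr ⟨mem_range.mpr (by omega), mem_product.mpr
      ⟨mem_iv.mpr ha, mem_iv.mpr hb⟩⟩, hq'.2.2.2⟩

end

end Vale.Agent.P141.H42.Pack1
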